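import Vale.Agent.P227.CalT
import Vale.Agent.P227.Pk

/-! Higher order a priori bounds for the moment potential. -/

namespace Vale.Agent.P227

open scoped ContDiff Matrix RealInnerProductSpace Topology
open MeasureTheory Filter

variable {n : ℕ}

/-- `ap_ell`, `cal_bound` give `MHb 0` for `hess Θ` (`hol_of_D`) and, by `mhb_inv`, for `τ`; take
`K₀` dominating this and `1/κ`, `om` from `Pk` at `(1/K, K₀)`, `η`, `R` from `ap_far`. Apply `Pk` to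
`v = D i Θ`, `l = 0`, `Aop τ 0 (D i Θ) = D i W` (`L_D`, `N2.hs_D`, `Hs.of_le`) for `k = 0, 1, 2`,
each time passing to `hess Θ` by `n2_succ_of` and to `τ` by `mhb_inv`. -/
theorem ap_hi (n : ℕ) {κ K : ℝ} (hκ : 0 < κ) (hK : 0 < K) (R₀ : ℝ) : ∃ η K' : ℝ, 0 < η ∧ 0 < K' ∧
    ∀ Θ W : E n → ℝ, Pot Θ W → Adm κ K R₀ η W → MHb 3 K' (hess Θ) ∧ MHb 3 K' (tau Θ) := by
  obtain ⟨C₃, hC₃, h₃⟩ := cal_bound n hκ hK
  obtain ⟨C₀, hC₀, h₀⟩ := mhb_inv n 0 (K + n * C₃) (1 / κ)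
  have hκ' : 0 < 1 / κ := by positivity
  have hK' : 0 < 1 / K := by positivity
  obtain ⟨om, hom, hP⟩ := Pk n hK' (K := C₀ + 1 / κ) (by positivity)
  obtain ⟨η, hη, hfar⟩ := ap_far n hκ hK hom
  obtain ⟨R, hR⟩ := hfar R₀
  have hinv : ∀ Θ W : E n → ℝ, Pot Θ W → Adm κ K R₀ η W →
      ∀ x i j, |(hess Θ x)⁻¹ i j| ≤ 1 / κ := fun Θ W h hA x i j =>
    ((ap_ell h hκ hK hA.1).1 x).abs_le hK'.le i j
  have hh : ∀ Θ W : E n → ℝ, Pot Θ W → Adm κ K R₀ η W →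
      ∀ i j x, |D i (D j Θ) x| ≤ K := fun Θ W h hA i j x =>
    ((ap_ell h hκ hK hA.1).2 x).abs_le hκ.le i j
  have base : ∀ Θ W : E n → ℝ, Pot Θ W → Adm κ K R₀ η W → MHb 0 C₀ (tau Θ) := by
    intro Θ W h hA
    refine h₀ (hess Θ) h.toLPot.unit (fun i j => ?_) (hinv Θ W h hA)
    have hs : ContDiff ℝ ∞ (D i (D j Θ)) := smo_D i (smo_D j h.sT)
    have hn : 0 ≤ n * C₃ := by positivity
    refine ⟨hs, fun x => (hh Θ W h hA i j x).trans (by linarith), ?_⟩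
    exact (hol_of_D (smo_diff hs) hC₃.le fun p x => h₃ Θ W h hA.1 hA.2.1 p i j x).mono
      (by linarith)
  have step : ∀ k : ℕ, k ≤ 2 → ∀ K₁ : ℝ, ∃ K₂ : ℝ, 0 < K₂ ∧ ∀ Θ W : E n → ℝ, Pot Θ W →
      Adm κ K R₀ η W → MHb k K₁ (tau Θ) →
        MHb (k + 1) K₂ (hess Θ) ∧ MHb (k + 1) K₂ (tau Θ) := by
    intro k hk K₁
    obtain ⟨C, hC, hC'⟩ := hP k R K₁
    have hF : 0 ≤ (n + 1) * K := by positivity
    have hM : 0 ≤ C * (K + (n + 1) * K) := by positivity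
    obtain ⟨C', hC'0, hC''⟩ := mhb_inv n (k + 1) (K + (n + 1) * (C * (K + (n + 1) * K))) (1 / κ)
    have hB : 0 < K + (n + 1) * (C * (K + (n + 1) * K)) := by positivity
    refine ⟨K + (n + 1) * (C * (K + (n + 1) * K)) + C', by positivity, fun Θ W h hA hτ => ?_⟩
    have h1 : ∀ i, N2 k (C * (K + (n + 1) * K)) (D i Θ) := by
      intro i
      refine hC' (tau Θ) 0 (D i Θ) K ((n + 1) * K)
        (fun x => ((ap_ell h hκ hK hA.1).1 x).mono le_rfl (by linarith))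
        ((base Θ W h hA).mono (by linarith)) hτ (hR Θ W h hA.1 hA.2.2) (by norm_num)
        (h.mT.D i) hK.le hF (fun j x => hh Θ W h hA j i x) ?_
      have e : Aop (tau Θ) 0 (D i Θ) = D i W := by
        funext x
        rw [Aop, h.toLPot.L_D i]
        simp
      rw [e]
      exact (hA.2.1.hs_D h.sW hK.le i).of_le hk
    have h2 : MHb (k + 1) (K + (n + 1) * (C * (K + (n + 1) * K))) (hess Θ) :=
      n2_iff_mhb.1 (n2_succ_of h.sT hM (hh Θ W h hA) h1)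
    exact ⟨h2.mono (by linarith),
      (hC'' (hess Θ) h.toLPot.unit h2 (hinv Θ W h hA)).mono (by linarith)⟩
  obtain ⟨K₁, -, s₁⟩ := step 0 (by norm_num) C₀
  obtain ⟨K₂, -, s₂⟩ := step 1 (by norm_num) K₁
  obtain ⟨K₃, hK₃, s₃⟩ := step 2 le_rfl K₂
  exact ⟨η, K₃, hη, hK₃, fun Θ W h hA =>
    s₃ Θ W h hA (s₂ Θ W h hA (s₁ Θ W h hA (base Θ W h hA)).2).2⟩

end Vale.Agent.P227
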