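import Vale.Agent.P227.Apri1

/-! Smallness of derivatives of the Stein kernel far out. -/

namespace Vale.Agent.P227

open scoped ContDiff Matrix RealInnerProductSpace Topology
open MeasureTheory Filter

variable {n : ℕ}

/-- `ap_far` with a much smaller `om'`, then `deriv_small` twice (radius `r ≤ 1`, `mo_small`) -/
theorem ap_far2 (n : ℕ) {κ K K' om : ℝ} (hκ : 0 < κ) (hK : 0 < K) (hK' : 0 < K') (hom : 0 < om) :
    ∃ η : ℝ, 0 < η ∧ ∀ R₀ : ℝ, ∃ R : ℝ, ∀ Θ W : E n → ℝ, Pot Θ W → Ell κ K (hess W) →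
      Far η R₀ (hess W) → MHb 3 K' (tau Θ) → Far2 om R (tau Θ) := by
  obtain ⟨small, hsmall⟩ : ∃ f : ℝ → ℝ, ∀ a, 0 < a → 0 < f a ∧ ∀ (g : E n → ℝ) (x : E n) (b : ℝ)
      (i : Fin n), Differentiable ℝ g → (∀ y, ‖y - x‖ ≤ 1 → |g y - b| ≤ f a) →
      Hol K' (D i g) → |D i g x| ≤ a := by
    have key : ∀ a : ℝ, ∃ t : ℝ, 0 < a → 0 < t ∧ ∀ (g : E n → ℝ) (x : E n) (b : ℝ)
        (i : Fin n), Differentiable ℝ g → (∀ y, ‖y - x‖ ≤ 1 → |g y - b| ≤ t) →
        Hol K' (D i g) → |D i g x| ≤ a := by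
      intro a
      by_cases ha : 0 < a
      · obtain ⟨r, hr, h⟩ := mo_small (K := K') (half_pos ha)
        have hr' : 0 < min r 1 := by positivity
        refine ⟨a / 4 * min r 1, fun _ => ⟨by positivity, fun g x b i hg h0 h1 => ?_⟩⟩
        have c := deriv_small (x := x) (a := b) (om := a / 4 * min r 1) hg hr' hK'.le
          (fun y hy => h0 y (hy.trans (min_le_right _ _))) h1
        have d := h _ hr'.le (min_le_left _ _)
        have e : 2 * (a / 4 * min r 1) / min r 1 = a / 2 := by field_simp; ring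
        linarith
      · exact ⟨0, fun h => absurd h ha⟩
    choose f hf using key
    exact ⟨f, hf⟩
  obtain ⟨h1, g1⟩ := hsmall om hom
  have h2 : 0 < min om (small om) := by positivity
  obtain ⟨h3, g3⟩ := hsmall _ h2
  obtain ⟨η, hη, h⟩ := ap_far n hκ hK h3
  refine ⟨η, hη, fun R₀ => ?_⟩
  obtain ⟨R, hR⟩ := h R₀
  refine ⟨R + 2, fun Θ W hP hE hF m3 => ?_⟩
  have f0 := hR Θ W hP hE hF
  have near : ∀ (x y : E n) (a : ℝ), a + 1 ≤ ‖x‖ → ‖y - x‖ ≤ 1 → a ≤ ‖y‖ := by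
    intro x y a hx hy
    have := norm_sub_norm_le x y
    rw [norm_sub_rev] at this
    linarith
  have f1 : ∀ x, R + 1 ≤ ‖x‖ → ∀ i j p, |D p (ent (tau Θ) i j) x| ≤ min om (small om) :=
    fun x hx i j p => g3 _ x ((1 : Mat n) i j) p (smo_diff (m3 i j).smo)
      (fun y hy => f0 y (near x y R hx hy) i j) ((m3 i j).D p).hol
  intro x hx i j p q
  refine ⟨(f1 x (by linarith) i j p).trans (min_le_left _ _), ?_⟩
  refine g1 _ x 0 q (smo_diff ((m3 i j).D p).smo) (fun y hy => ?_) (((m3 i j).D p).D q).hol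
  rw [sub_zero]
  exact (f1 y (near x y (R + 1) (by linarith) hy) i j p).trans (min_le_right _ _)

end Vale.Agent.P227
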