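import Vale.Agent.P227.Stmt

/-! Definitions for the log-Brunn-Minkowski proof (moment map, Stein kernel, Schauder scale). -/

namespace Vale.Agent.P227

open scoped ContDiff Matrix RealInnerProductSpace
open MeasureTheory

abbrev E (n : ℕ) := EuclideanSpace ℝ (Fin n)
abbrev Mat (n : ℕ) := Matrix (Fin n) (Fin n) ℝ

noncomputable section

variable {n : ℕ}

/-- basis vector -/
def ev (i : Fin n) : E n := EuclideanSpace.single i 1
/-- directional derivative -/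
def pd (w : E n) (f : E n → ℝ) : E n → ℝ := fun x => fderiv ℝ f x w
/-- coordinate derivative -/
def D (i : Fin n) (f : E n → ℝ) : E n → ℝ := pd (ev i) f
/-- radial derivative `x · ∇ f` -/
def rad (f : E n → ℝ) : E n → ℝ := fun x => ∑ i, x i * D i f x
/-- Hessian matrix -/
def hess (f : E n → ℝ) (x : E n) : Mat n := Matrix.of fun i j => D i (D j f) x
/-- third derivatives -/
def d3 (f : E n → ℝ) (x : E n) (i j k : Fin n) : ℝ := D i (D j (D k f)) x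
/-- fourth derivatives -/
def d4 (f : E n → ℝ) (x : E n) (i j k l : Fin n) : ℝ := D i (D j (D k (D l f))) x
/-- quadratic form of a matrix -/
def qf (A : Mat n) (ξ : E n) : ℝ := ∑ i, ∑ j, A i j * ξ i * ξ j
/-- even function -/
def Ev (f : E n → ℝ) : Prop := ∀ x, f (-x) = f x
/-- entry of a matrix field -/
def ent (τ : E n → Mat n) (i j : Fin n) : E n → ℝ := fun x => τ x i j
/-- entrywise derivative of a matrix field -/
def MD (k : Fin n) (τ : E n → Mat n) (x : E n) : Mat n := Matrix.of fun i j => D k (ent τ i j) x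
/-- linear map of a matrix -/
def lin (B : Mat n) : E n →L[ℝ] E n :=
  LinearMap.toContinuousLinearMap (Matrix.toEuclideanLin B)

/-- modulus of continuity (Hoelder 1/2 at short range, Lipschitz at long range) -/
def mo (d : ℝ) : ℝ := Real.sqrt d + d
def Hol (K : ℝ) (f : E n → ℝ) : Prop := ∀ x y, |f x - f y| ≤ K * mo ‖x - y‖
def H0 (M : ℝ) (f : E n → ℝ) : Prop := ContDiff ℝ ∞ f ∧ (∀ x, |f x| ≤ M) ∧ Hol M f
/-- smooth, with `C^{k,1/2}` norm at most `M` -/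
def Hb : ℕ → ℝ → (E n → ℝ) → Prop
  | 0, M, f => H0 M f
  | k + 1, M, f => H0 M f ∧ ∀ i, Hb k M (D i f)
/-- the same without the sup bound on `f` itself -/
def Hs : ℕ → ℝ → (E n → ℝ) → Prop
  | 0, F, f => Hol F f
  | k + 1, F, f => Hol F f ∧ ∀ i, Hb k F (D i f)
/-- second derivatives in `Hb k M` -/
def N2 (k : ℕ) (M : ℝ) (f : E n → ℝ) : Prop := ∀ i j, Hb k M (D i (D j f))
/-- smooth with all derivatives bounded -/
def Binf (f : E n → ℝ) : Prop := ∀ k, ∃ M, Hb k M f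
/-- smooth with all derivatives of order at least two bounded -/
def Sm (f : E n → ℝ) : Prop := ContDiff ℝ ∞ f ∧ ∀ k, ∃ M, N2 k M f
/-- polynomially bounded -/
def PB (f : E n → ℝ) : Prop := ∃ C : ℝ, ∃ m : ℕ, ∀ x, |f x| ≤ C * (1 + ‖x‖) ^ m
def PGk : ℕ → (E n → ℝ) → Prop
  | 0, f => PB f
  | k + 1, f => PB f ∧ ∀ i, PGk k (D i f)
/-- smooth with all derivatives polynomially bounded -/
def PG (f : E n → ℝ) : Prop := ContDiff ℝ ∞ f ∧ ∀ k, PGk k f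

def MSmo (τ : E n → Mat n) : Prop := ∀ i j, ContDiff ℝ ∞ (ent τ i j)
def MHb (k : ℕ) (K : ℝ) (τ : E n → Mat n) : Prop := ∀ i j, Hb k K (ent τ i j)
def MBinf (τ : E n → Mat n) : Prop := ∀ i j, Binf (ent τ i j)
def MPG (τ : E n → Mat n) : Prop := ∀ i j, PG (ent τ i j)
/-- symmetric with eigenvalues in `[c, K]` -/
def Ell1 (c K : ℝ) (A : Mat n) : Prop :=
  A.IsSymm ∧ ∀ ξ : E n, c * ‖ξ‖ ^ 2 ≤ qf A ξ ∧ qf A ξ ≤ K * ‖ξ‖ ^ 2
def Ell (c K : ℝ) (τ : E n → Mat n) : Prop := ∀ x, Ell1 c K (τ x)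
def Far (om R : ℝ) (τ : E n → Mat n) : Prop :=
  ∀ x, R ≤ ‖x‖ → ∀ i j, |τ x i j - (1 : Mat n) i j| ≤ om
def Far2 (om R : ℝ) (τ : E n → Mat n) : Prop :=
  ∀ x, R ≤ ‖x‖ → ∀ i j p q, |D p (ent τ i j) x| ≤ om ∧ |D q (D p (ent τ i j)) x| ≤ om

/-- the operator `L = τ^{ij} ∂_{ij} - x · ∇` -/
def Lop (τ : E n → Mat n) (f : E n → ℝ) : E n → ℝ :=
  fun x => (∑ i, ∑ j, τ x i j * D i (D j f) x) - rad f x
/-- the operator `l - L` -/
def Aop (τ : E n → Mat n) (l : ℝ) (f : E n → ℝ) : E n → ℝ := fun x => l * f x - Lop τ f x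
/-- carre du champ -/
def Gam (τ : E n → Mat n) (f g : E n → ℝ) : E n → ℝ :=
  fun x => ∑ k, ∑ l, τ x k l * D k f x * D l g x
/-- the constant field `1` -/
def one (n : ℕ) : E n → Mat n := fun _ => 1
/-- inverse Hessian (the Stein kernel) -/
def tau (Θ : E n → ℝ) : E n → Mat n := fun x => (hess Θ x)⁻¹

/-- the matrix `Q_{ab} = tr (τ T_a τ T_b)`, `T_a = ∂_a Θ''` -/
def Qm (Θ : E n → ℝ) (x : E n) : Mat n :=
  Matrix.of fun a b => (tau Θ x * hess (D a Θ) x * tau Θ x * hess (D b Θ) x).trace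
/-- divergence with respect to `e^{-W} dx` -/
def divW (W : E n → ℝ) (v : Fin n → E n → ℝ) : E n → ℝ :=
  fun x => ∑ i, (D i (v i) x - v i x * D i W x)

/-- local form of the moment equation `W = x·∇Θ - Θ - log det Θ''` (differentiated once) -/
structure LPot (Θ W : E n → ℝ) : Prop where
  sT : ContDiff ℝ ∞ Θ
  sW : ContDiff ℝ ∞ W
  pos : ∀ x, (hess Θ x).PosDef
  grad : ∀ i x, D i W x = (∑ a, x a * hess Θ x a i) - (tau Θ x * hess (D i Θ) x).trace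

/-- moment potential with qualitative global bounds -/
structure Pot (Θ W : E n → ℝ) : Prop extends LPot Θ W where
  mT : Sm Θ
  mW : Sm W
  eT : Ev Θ
  eW : Ev W
  low : ∃ c : ℝ, 0 < c ∧ ∀ x ξ, c * ‖ξ‖ ^ 2 ≤ qf (hess Θ x) ξ

/-- unnormalised expectation against `e^{-W}` -/
def Ex (W g : E n → ℝ) : ℝ := ∫ x, g x * Real.exp (-W x)
def Coer (W : E n → ℝ) : Prop := ∃ κ C : ℝ, 0 < κ ∧ ∀ x, κ * ‖x‖ ^ 2 - C ≤ W x
/-- continuous and polynomially bounded -/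
def CPB (g : E n → ℝ) : Prop := Continuous g ∧ PB g
def gW : E n → ℝ := fun z => ‖z‖ ^ 2 / 2
/-- standard Gaussian expectation -/
def GE (g : E n → ℝ) : ℝ := Ex gW g / Ex (gW : E n → ℝ) fun _ => 1
def sg (t : ℝ) : ℝ := Real.sqrt (1 - Real.exp (-2 * t))
/-- Ornstein-Uhlenbeck (Mehler) semigroup -/
def OU (t : ℝ) (g : E n → ℝ) : E n → ℝ :=
  fun x => GE fun z => g (Real.exp (-t) • x + sg t • z)

/-- approximate solvability of `(l - L) θ = u` on even functions -/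
def ASolv (τ : E n → Mat n) (l : ℝ) : Prop :=
  ∀ u, Sm u → Ev u → ∀ ε : ℝ, 0 < ε →
    ∃ θ, Sm θ ∧ Ev θ ∧ Sm (rad θ) ∧ N2 1 ε (fun x => Aop τ l θ x - u x)
/-- linear a priori estimate with gain of two derivatives -/
def APri (C : ℝ) (τ : E n → Mat n) : Prop :=
  ∀ (l : ℝ) (θ : E n → ℝ) (M : ℝ), -1 ≤ l → 0 ≤ M → Sm θ → Ev θ →
    N2 1 M (Aop τ l θ) → N2 3 (C * M) θ
/-- admissible target -/
def Adm (κ K R η : ℝ) (W : E n → ℝ) : Prop :=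
  Ell κ K (hess W) ∧ N2 1 K W ∧ Far η R (hess W)

/-- squared norm of a 3-tensor in the metric `τ` -/
def nrm3 (τ : Mat n) (t : Fin n → Fin n → Fin n → ℝ) : ℝ :=
  ∑ i, ∑ j, ∑ k, ∑ a, ∑ b, ∑ c, τ i a * τ j b * τ k c * t i j k * t a b c
/-- Calabi's quantity -/
def wC (Θ : E n → ℝ) : E n → ℝ := fun x => nrm3 (tau Θ x) (d3 Θ x)
def Sym3 (t : Fin n → Fin n → Fin n → ℝ) : Prop :=
  (∀ i j k, t i j k = t j i k) ∧ ∀ i j k, t i j k = t i k j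
def Sym4 (q : Fin n → Fin n → Fin n → Fin n → ℝ) : Prop :=
  (∀ i j k l, q i j k l = q j i k l) ∧ (∀ i j k l, q i j k l = q i k j l) ∧
    ∀ i j k l, q i j k l = q i j l k
def cQ (t : Fin n → Fin n → Fin n → ℝ) (i a : Fin n) : ℝ := ∑ k, ∑ l, t i k l * t a k l
def cP (t : Fin n → Fin n → Fin n → ℝ) : ℝ :=
  ∑ i, ∑ j, ∑ k, ∑ p, ∑ r, ∑ l, t i j k * t p r k * t i p l * t j r l
def cA (t : Fin n → Fin n → Fin n → ℝ) (q : Fin n → Fin n → Fin n → Fin n → ℝ) : ℝ :=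
  ∑ i, ∑ j, ∑ k, ∑ p, ∑ r, t i j k * t p r k * q p r i j

/-- `u = (L + 1) φ` -/
def uu (Θ φ : E n → ℝ) : E n → ℝ := fun x => Lop (tau Θ) φ x + φ x
/-- the vector field `c = - τ ∇ u` -/
def cc (Θ φ : E n → ℝ) (i : Fin n) : E n → ℝ := fun x => -∑ a, tau Θ x i a * D a (uu Θ φ) x
/-- `F = - L u` -/
def FF (Θ φ : E n → ℝ) : E n → ℝ := fun x => -Lop (tau Θ) (uu Θ φ) x
/-- `S = τ φ'' τ` -/
def SS (Θ φ : E n → ℝ) : E n → Mat n := fun x => tau Θ x * hess φ x * tau Θ x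
/-- `M = τ φ'' τ φ'' τ` -/
def MM (Θ φ : E n → ℝ) : E n → Mat n :=
  fun x => tau Θ x * hess φ x * tau Θ x * hess φ x * tau Θ x
/-- derivative of `τ P τ` when `τ' = - τ T τ`, `P' = Ψ` -/
def dS (τ P T Ψ : Mat n) : Mat n := τ * Ψ * τ - τ * T * τ * P * τ - τ * P * τ * T * τ
/-- derivative of `τ P τ P τ` -/
def dM (τ P T Ψ : Mat n) : Mat n :=
  τ * Ψ * τ * P * τ + τ * P * τ * Ψ * τ - τ * T * τ * P * τ * P * τ - τ * P * τ * T * τ * P * τ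
    - τ * P * τ * P * τ * T * τ
def kB (τ P : Mat n) (T Ψ : Fin n → Mat n) : ℝ :=
  (∑ k, ∑ l, τ k l * (dS τ P (T k) (Ψ k) * Ψ l).trace) +
    ∑ i, ∑ j, (τ * P * τ) i j * (τ * T j * τ * Ψ i).trace
def kC (τ P : Mat n) (T Ψ : Fin n → Mat n) : ℝ :=
  (∑ k, ∑ l, τ k l * (dM τ P (T k) (Ψ k) * T l).trace) +
    ∑ i, ∑ j, (τ * P * τ * P * τ) i j * (τ * T i * τ * T j).trace

/-- variance inequality `Var f ≤ E R` in unnormalised form -/
def VarIneq (W f R : E n → ℝ) : Prop :=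
  Ex W (fun _ => 1) * Ex W (fun x => f x ^ 2) - Ex W f ^ 2 ≤ Ex W (fun _ => 1) * Ex W R
def fG {k : ℕ} (Wm : Fin k → E n → ℝ) (d : Fin k → ℝ) : E n → ℝ :=
  fun x => ∑ m, d m * rad (Wm m) x
def RG {k : ℕ} (Wm : Fin k → E n → ℝ) (d : Fin k → ℝ) : E n → ℝ :=
  fun x => ∑ m, d m ^ 2 * (rad (Wm m) x + qf (hess (Wm m) x) x)

/-- ridge function -/
def ridge (b : E n) (g : ℝ → ℝ) : E n → ℝ := fun x => g ⟪b, x⟫
/-- admissible one-dimensional profile -/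
structure RW (w : ℝ → ℝ) : Prop where
  smo : ContDiff ℝ ∞ w
  even : ∀ s, w (-s) = w s
  nonneg : ∀ s, 0 ≤ w s
  conv : ∀ s, 0 ≤ deriv (deriv w) s
  supp : HasCompactSupport (deriv (deriv w))
def fR {k : ℕ} (b : Fin k → E n) (d : Fin k → ℝ) (w : ℝ → ℝ) : E n → ℝ :=
  fun x => ∑ m, d m * (⟪b m, x⟫ * deriv w ⟪b m, x⟫)
def RR {k : ℕ} (b : Fin k → E n) (d : Fin k → ℝ) (w : ℝ → ℝ) : E n → ℝ :=
  fun x => ∑ m, d m ^ 2 * (⟪b m, x⟫ * deriv w ⟪b m, x⟫ + ⟪b m, x⟫ ^ 2 * deriv (deriv w) ⟪b m, x⟫)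
def HR {k : ℕ} (b : Fin k → E n) (w : ℝ → ℝ) (x ξ : E n) : ℝ :=
  ∑ m, deriv (deriv w) ⟪b m, x⟫ * ⟪b m, ξ⟫ ^ 2
def VR {k : ℕ} (ε : ℝ) (b : Fin k → E n) (w : ℝ → ℝ) : E n → ℝ :=
  fun x => ε * ‖x‖ ^ 2 + ∑ m, w ⟪b m, x⟫
def ZR {k : ℕ} (ε : ℝ) (a : Fin k → E n) (d : Fin k → ℝ) (w : ℝ → ℝ) (t : ℝ) : ℝ :=
  Ex (VR ε (fun m => Real.exp (-(d m * t)) • a m) w) fun _ => 1
/-- finite intersection of symmetric strips -/
def strips {k : ℕ} (u : Fin k → E n) (α : Fin k → ℝ) : Set (E n) := {x | ∀ m, |⟪u m, x⟫| ≤ α m}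
/-- Gaussian mass of a set -/
def gm (ε : ℝ) (S : Set (E n)) : ℝ := ∫ x in S, Real.exp (-(ε * ‖x‖ ^ 2))

end

end Vale.Agent.P227
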