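import Vale.Agent.P227.Lap4
import Vale.Agent.P227.Apri2
import Vale.Agent.P227.Apri3

/-! Uniform bounds along the continuity path. -/

namespace Vale.Agent.P227

open scoped ContDiff Matrix RealInnerProductSpace Topology
open MeasureTheory Filter

variable {n : ℕ}

/-- combine `ap_ell`, `ap_hi`, `ap_far`, `ap_far2`, `lap`; `η` is the minimum of three constants
(`Far.mono`) -/
theorem uni (n : ℕ) {κ K : ℝ} (hκ : 0 < κ) (hK : 0 < K) (R₀ : ℝ) :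
    ∃ η K' C : ℝ, 0 < η ∧ 0 < K' ∧ 0 < C ∧ ∀ Θ W : E n → ℝ, Pot Θ W → Adm κ K R₀ η W →
      Ell κ K (hess Θ) ∧ MHb 3 K' (hess Θ) ∧ MHb 3 K' (tau Θ) ∧ APri C (tau Θ) := by
  obtain ⟨η₁, K₁, hη₁, hK₁, hhi⟩ := ap_hi n hκ hK R₀
  have hK' : 0 < max K₁ (1 / κ) := lt_max_of_lt_left hK₁
  obtain ⟨om₁, hom₁, hl⟩ := lap n (c := 1 / K) hκ hK (by positivity) hK'
  obtain ⟨η₂, hη₂, hfar⟩ := ap_far n hκ hK hom₁
  obtain ⟨R₁, hR₁⟩ := hfar R₀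
  obtain ⟨om₂, hom₂, hl⟩ := hl R₁
  obtain ⟨η₃, hη₃, hfar2⟩ := ap_far2 n hκ hK hK' hom₂
  obtain ⟨R₂, hR₂⟩ := hfar2 R₀
  obtain ⟨C, hC, hl⟩ := hl R₂
  refine ⟨min η₁ (min η₂ η₃), max K₁ (1 / κ), C, by positivity, hK', hC, fun Θ W hP hA => ?_⟩
  obtain ⟨e1, e2⟩ := ap_ell hP hκ hK hA.1
  obtain ⟨m1, m2⟩ := hhi Θ W hP ⟨hA.1, hA.2.1, hA.2.2.mono (min_le_left _ _) le_rfl⟩
  have m2' := m2.mono (le_max_left K₁ (1 / κ))
  refine ⟨e2, m1.mono (le_max_left _ _), m2', hl Θ W hP hA.1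
    (fun x => (e1 x).mono le_rfl (le_max_right _ _)) m2' (hR₁ Θ W hP hA.1 ?_)
    (hR₂ Θ W hP hA.1 ?_ m2')⟩
  · exact hA.2.2.mono ((min_le_right _ _).trans (min_le_left _ _)) le_rfl
  · exact hA.2.2.mono ((min_le_right _ _).trans (min_le_right _ _)) le_rfl

end Vale.Agent.P227
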